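import Vale.Agent.P021.R2.H626.Chk1
import Vale.Agent.P021.R2.H626.Chk2
import Vale.Agent.P021.R2.H626.Chk3
import Vale.Agent.P021.R2.H626.Chk4
import Vale.Agent.P021.R2.H626.Chk5
import Vale.Agent.P021.R2.H626.Chk6
import Vale.Agent.P021.R2.H626.Chk7
import Vale.Agent.P021.R2.H626.Chk8
import Vale.Agent.P021.R2.H626.Chk9
import Vale.Agent.P021.R2.H626.Chk10
import Vale.Agent.P021.R2.H626.Chk11
import Vale.Agent.P021.R2.H626.Chk12
import Vale.Agent.P021.R2.H626.Chk13
import Vale.Agent.P021.R2.H626.Chk14
import Vale.Agent.P021.R2.H626.Chk15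
import Vale.Agent.P021.R2.H626.Chk16

set_option maxRecDepth 100000
set_option linter.all false

namespace Vale.Agent.P021.R2.H626

open Vale.Agent.P021.R2.H332

theorem chk0 : runSegm rts 168000 328000 224000 pk bnds ones 0 (3072, 0) (2954, 131) 0 (part0_0 ++ (part0_1 ++ (part0_2))) = true :=
  runSegm_app chk0_0 (by decide) (runSegm_app chk0_1 (by decide) (chk0_2))

theorem chk1 : runSegm rts 168000 328000 224000 pk bnds ones 0 (2954, 131) (2902, 144) 0 (part1_0 ++ (part1_1 ++ (part1_2 ++ (part1_3 ++ (part1_4 ++ (part1_5 ++ (part1_6 ++ (part1_7 ++ (part1_8 ++ (part1_9 ++ (part1_10 ++ (part1_11 ++ (part1_12 ++ (part1_13 ++ (part1_14))))))))))))))) = true :=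
  runSegm_app chk1_0 (by decide) (runSegm_app chk1_1 (by decide) (runSegm_app chk1_2 (by decide) (runSegm_app chk1_3 (by decide) (runSegm_app chk1_4 (by decide) (runSegm_app chk1_5 (by decide) (runSegm_app chk1_6 (by decide) (runSegm_app chk1_7 (by decide) (runSegm_app chk1_8 (by decide) (runSegm_app chk1_9 (by decide) (runSegm_app chk1_10 (by decide) (runSegm_app chk1_11 (by decide) (runSegm_app chk1_12 (by decide) (runSegm_app chk1_13 (by decide) (chk1_14))))))))))))))

theorem chk2 : runSegm rts 168000 328000 224000 pk bnds ones 0 (2902, 144) (2858, 143) 0 (part2_0 ++ (part2_1 ++ (part2_2 ++ (part2_3 ++ (part2_4 ++ (part2_5 ++ (part2_6 ++ (part2_7 ++ (part2_8 ++ (part2_9 ++ (part2_10 ++ (part2_11 ++ (part2_12 ++ (part2_13 ++ (part2_14 ++ (part2_15 ++ (part2_16))))))))))))))))) = true :=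
  runSegm_app chk2_0 (by decide) (runSegm_app chk2_1 (by decide) (runSegm_app chk2_2 (by decide) (runSegm_app chk2_3 (by decide) (runSegm_app chk2_4 (by decide) (runSegm_app chk2_5 (by decide) (runSegm_app chk2_6 (by decide) (runSegm_app chk2_7 (by decide) (runSegm_app chk2_8 (by decide) (runSegm_app chk2_9 (by decide) (runSegm_app chk2_10 (by decide) (runSegm_app chk2_11 (by decide) (runSegm_app chk2_12 (by decide) (runSegm_app chk2_13 (by decide) (runSegm_app chk2_14 (by decide) (runSegm_app chk2_15 (by decide) (chk2_16))))))))))))))))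

theorem chk3 : runSegm rts 168000 328000 224000 pk bnds ones 0 (2858, 143) (2815, 133) 0 (part3_0 ++ (part3_1 ++ (part3_2 ++ (part3_3 ++ (part3_4 ++ (part3_5 ++ (part3_6 ++ (part3_7 ++ (part3_8 ++ (part3_9 ++ (part3_10 ++ (part3_11 ++ (part3_12 ++ (part3_13 ++ (part3_14 ++ (part3_15 ++ (part3_16))))))))))))))))) = true :=
  runSegm_app chk3_0 (by decide) (runSegm_app chk3_1 (by decide) (runSegm_app chk3_2 (by decide) (runSegm_app chk3_3 (by decide) (runSegm_app chk3_4 (by decide) (runSegm_app chk3_5 (by decide) (runSegm_app chk3_6 (by decide) (runSegm_app chk3_7 (by decide) (runSegm_app chk3_8 (by decide) (runSegm_app chk3_9 (by decide) (runSegm_app chk3_10 (by decide) (runSegm_app chk3_11 (by decide) (runSegm_app chk3_12 (by decide) (runSegm_app chk3_13 (by decide) (runSegm_app chk3_14 (by decide) (runSegm_app chk3_15 (by decide) (chk3_16))))))))))))))))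

theorem chk4 : runSegm rts 168000 328000 224000 pk bnds ones 0 (2815, 133) (2771, 113) 0 (part4_0 ++ (part4_1 ++ (part4_2 ++ (part4_3 ++ (part4_4 ++ (part4_5 ++ (part4_6 ++ (part4_7 ++ (part4_8 ++ (part4_9 ++ (part4_10 ++ (part4_11 ++ (part4_12 ++ (part4_13 ++ (part4_14))))))))))))))) = true :=
  runSegm_app chk4_0 (by decide) (runSegm_app chk4_1 (by decide) (runSegm_app chk4_2 (by decide) (runSegm_app chk4_3 (by decide) (runSegm_app chk4_4 (by decide) (runSegm_app chk4_5 (by decide) (runSegm_app chk4_6 (by decide) (runSegm_app chk4_7 (by decide) (runSegm_app chk4_8 (by decide) (runSegm_app chk4_9 (by decide) (runSegm_app chk4_10 (by decide) (runSegm_app chk4_11 (by decide) (runSegm_app chk4_12 (by decide) (runSegm_app chk4_13 (by decide) (chk4_14))))))))))))))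

theorem chk5 : runSegm rts 168000 328000 224000 pk bnds ones 0 (2771, 113) (2725, 77) 0 (part5_0 ++ (part5_1 ++ (part5_2 ++ (part5_3 ++ (part5_4 ++ (part5_5 ++ (part5_6 ++ (part5_7 ++ (part5_8 ++ (part5_9 ++ (part5_10 ++ (part5_11 ++ (part5_12 ++ (part5_13 ++ (part5_14 ++ (part5_15 ++ (part5_16))))))))))))))))) = true :=
  runSegm_app chk5_0 (by decide) (runSegm_app chk5_1 (by decide) (runSegm_app chk5_2 (by decide) (runSegm_app chk5_3 (by decide) (runSegm_app chk5_4 (by decide) (runSegm_app chk5_5 (by decide) (runSegm_app chk5_6 (by decide) (runSegm_app chk5_7 (by decide) (runSegm_app chk5_8 (by decide) (runSegm_app chk5_9 (by decide) (runSegm_app chk5_10 (by decide) (runSegm_app chk5_11 (by decide) (runSegm_app chk5_12 (by decide) (runSegm_app chk5_13 (by decide) (runSegm_app chk5_14 (by decide) (runSegm_app chk5_15 (by decide) (chk5_16))))))))))))))))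

theorem chk6 : runSegm rts 168000 328000 224000 pk bnds ones 0 (2725, 77) (2662, 0) 0 (part6_0 ++ (part6_1 ++ (part6_2 ++ (part6_3 ++ (part6_4 ++ (part6_5 ++ (part6_6 ++ (part6_7 ++ (part6_8 ++ (part6_9 ++ (part6_10 ++ (part6_11 ++ (part6_12 ++ (part6_13 ++ (part6_14))))))))))))))) = true :=
  runSegm_app chk6_0 (by decide) (runSegm_app chk6_1 (by decide) (runSegm_app chk6_2 (by decide) (runSegm_app chk6_3 (by decide) (runSegm_app chk6_4 (by decide) (runSegm_app chk6_5 (by decide) (runSegm_app chk6_6 (by decide) (runSegm_app chk6_7 (by decide) (runSegm_app chk6_8 (by decide) (runSegm_app chk6_9 (by decide) (runSegm_app chk6_10 (by decide) (runSegm_app chk6_11 (by decide) (runSegm_app chk6_12 (by decide) (runSegm_app chk6_13 (by decide) (chk6_14))))))))))))))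

theorem chk7 : runSegm rts 168000 328000 224000 pk bnds ones 0 (2662, 0) (2048, 0) 0 (part7_0 ++ (part7_1 ++ (part7_2 ++ (part7_3 ++ (part7_4 ++ (part7_5 ++ (part7_6 ++ (part7_7 ++ (part7_8 ++ (part7_9 ++ (part7_10 ++ (part7_11 ++ (part7_12 ++ (part7_13 ++ (part7_14 ++ (part7_15 ++ (part7_16 ++ (part7_17 ++ (part7_18 ++ (part7_19 ++ (part7_20 ++ (part7_21 ++ (part7_22 ++ (part7_23 ++ (part7_24 ++ (part7_25 ++ (part7_26 ++ (part7_27 ++ (part7_28 ++ (part7_29 ++ (part7_30 ++ (part7_31 ++ (part7_32 ++ (part7_33 ++ (part7_34 ++ (part7_35 ++ (part7_36 ++ (part7_37 ++ (part7_38 ++ (part7_39 ++ (part7_40 ++ (part7_41 ++ (part7_42 ++ (part7_43 ++ (part7_44 ++ (part7_45 ++ (part7_46 ++ (part7_47 ++ (part7_48 ++ (part7_49 ++ (part7_50 ++ (part7_51 ++ (part7_52 ++ (part7_53 ++ (part7_54 ++ (part7_55 ++ (part7_56 ++ (part7_57 ++ (part7_58 ++ (part7_59 ++ (part7_60 ++ (part7_61 ++ (part7_62 ++ (part7_63 ++ (part7_64 ++ (part7_65 ++ (part7_66 ++ (part7_67 ++ (part7_68 ++ (part7_69 ++ (part7_70 ++ (part7_71 ++ (part7_72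 ++ (part7_73)))))))))))))))))))))))))))))))))))))))))))))))))))))))))))))))))))))))))) = true :=
  runSegm_app chk7_0 (by decide) (runSegm_app chk7_1 (by decide) (runSegm_app chk7_2 (by decide) (runSegm_app chk7_3 (by decide) (runSegm_app chk7_4 (by decide) (runSegm_app chk7_5 (by decide) (runSegm_app chk7_6 (by decide) (runSegm_app chk7_7 (by decide) (runSegm_app chk7_8 (by decide) (runSegm_app chk7_9 (by decide) (runSegm_app chk7_10 (by decide) (runSegm_app chk7_11 (by decide) (runSegm_app chk7_12 (by decide) (runSegm_app chk7_13 (by decide) (runSegm_app chk7_14 (by decide) (runSegm_app chk7_15 (by decide) (runSegm_app chk7_16 (by decide) (runSegm_app chk7_17 (by decide) (runSegm_app chk7_18 (by decide) (runSegm_app chk7_19 (by decide) (runSegm_app chk7_20 (by decide) (runSegm_app chk7_21 (by decide) (runSegm_app chk7_22 (by decide) (runSegm_app chk7_23 (by decide) (runSegm_app chk7_24 (by decide) (runSegm_app chk7_25 (by decide) (runSegm_app chk7_26 (by decide) (runSegm_app chk7_27 (by decide) (runSegm_app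 chk7_28 (by decide) (runSegm_app chk7_29 (by decide) (runSegm_app chk7_30 (by decide) (runSegm_app chk7_31 (by decide) (runSegm_app chk7_32 (by decide) (runSegm_app chk7_33 (by decide) (runSegm_app chk7_34 (by decide) (runSegm_app chk7_35 (by decide) (runSegm_app chk7_36 (by decide) (runSegm_app chk7_37 (by decide) (runSegm_app chk7_38 (by decide) (runSegm_app chk7_39 (by decide) (runSegm_app chk7_40 (by decide) (runSegm_app chk7_41 (by decide) (runSegm_app chk7_42 (by decide) (runSegm_app chk7_43 (by decide) (runSegm_app chk7_44 (by decide) (runSegm_app chk7_45 (by decide) (runSegm_app chk7_46 (by decide) (runSegm_app chk7_47 (by decide) (runSegm_app chk7_48 (by decide) (runSegm_app chk7_49 (by decide) (runSegm_app chk7_50 (by decide) (runSegm_app chk7_51 (by decide) (runSegm_app chk7_52 (by decide) (runSegm_app chk7_53 (by decide) (runSegm_app chk7_54 (by decide) (runSegm_app chk7_55 (by decide) (runSegm_app chk7_56 (by decide) (runSegm_app chk7_57 (by decide) (runSegm_app chk7_58 (by decide) (runSegm_app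 chk7_59 (by decide) (runSegm_app chk7_60 (by decide) (runSegm_app chk7_61 (by decide) (runSegm_app chk7_62 (by decide) (runSegm_app chk7_63 (by decide) (runSegm_app chk7_64 (by decide) (runSegm_app chk7_65 (by decide) (runSegm_app chk7_66 (by decide) (runSegm_app chk7_67 (by decide) (runSegm_app chk7_68 (by decide) (runSegm_app chk7_69 (by decide) (runSegm_app chk7_70 (by decide) (runSegm_app chk7_71 (by decide) (runSegm_app chk7_72 (by decide) (chk7_73)))))))))))))))))))))))))))))))))))))))))))))))))))))))))))))))))))))))))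

theorem chk8 : runSegm rts 168000 328000 224000 pk bnds ones 5489559354084 (3277, 0) (0, 3482) 0 (part8_0 ++ (part8_1)) = true :=
  runSegm_app chk8_0 (by decide) (chk8_1)

theorem chk9 : runSegm rts 168000 328000 224000 pk bnds ones 5489559354084 (0, 3482) (-3578, 3794) 0 part9_0 = true :=
  chk9_0

theorem chk10 : runSegm rts 168000 328000 224000 pk bnds ones 5489559354084 (-3578, 3794) (-5378, 1248) 0 (part10_0 ++ (part10_1 ++ (part10_2 ++ (part10_3 ++ (part10_4 ++ (part10_5 ++ (part10_6 ++ (part10_7 ++ (part10_8 ++ (part10_9 ++ (part10_10 ++ (part10_11 ++ (part10_12 ++ (part10_13 ++ (part10_14))))))))))))))) = true :=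
  runSegm_app chk10_0 (by decide) (runSegm_app chk10_1 (by decide) (runSegm_app chk10_2 (by decide) (runSegm_app chk10_3 (by decide) (runSegm_app chk10_4 (by decide) (runSegm_app chk10_5 (by decide) (runSegm_app chk10_6 (by decide) (runSegm_app chk10_7 (by decide) (runSegm_app chk10_8 (by decide) (runSegm_app chk10_9 (by decide) (runSegm_app chk10_10 (by decide) (runSegm_app chk10_11 (by decide) (runSegm_app chk10_12 (by decide) (runSegm_app chk10_13 (by decide) (chk10_14))))))))))))))

theorem chk11 : runSegm rts 168000 328000 224000 pk bnds ones 5489559354084 (-5378, 1248) (-5640, 0) 0 (part11_0 ++ (part11_1 ++ (part11_2 ++ (part11_3 ++ (part11_4 ++ (part11_5 ++ (part11_6 ++ (part11_7 ++ (part11_8 ++ (part11_9 ++ (part11_10 ++ (part11_11 ++ (part11_12 ++ (part11_13 ++ (part11_14 ++ (part11_15 ++ (part11_16))))))))))))))))) = true :=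
  runSegm_app chk11_0 (by decide) (runSegm_app chk11_1 (by decide) (runSegm_app chk11_2 (by decide) (runSegm_app chk11_3 (by decide) (runSegm_app chk11_4 (by decide) (runSegm_app chk11_5 (by decide) (runSegm_app chk11_6 (by decide) (runSegm_app chk11_7 (by decide) (runSegm_app chk11_8 (by decide) (runSegm_app chk11_9 (by decide) (runSegm_app chk11_10 (by decide) (runSegm_app chk11_11 (by decide) (runSegm_app chk11_12 (by decide) (runSegm_app chk11_13 (by decide) (runSegm_app chk11_14 (by decide) (runSegm_app chk11_15 (by decide) (chk11_16))))))))))))))))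

end Vale.Agent.P021.R2.H626
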